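import Vale.Agent.P245N.Pigeon.Gen

open MeasureTheory Real Filter Set
open scoped Topology RealInnerProductSpace

namespace Vale.Agent.P245N.Pig

open Vale.Agent.P245

variable {n : ℕ}

/-- Time derivative of a fibre moment. -/
noncomputable def momT (μ : Measure (Euc n)) (f : Euc n → ℝ) (t : ℝ) (θ : Euc n) : ℝ :=
  -(1 / 2) * (av t μ (fun y => f y * ‖y‖ ^ 2) θ - av t μ f θ * av t μ (fun y => ‖y‖ ^ 2) θ)

/-- Second derivative of a fibre moment in the `i`-th coordinate. -/
noncomputable def momD (μ : Measure (Euc n)) (f : Euc n → ℝ) (i : Fin n) (t : ℝ) (θ : Euc n) : ℝ :=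
  ⟪cov t μ (fun y => f y * ⟪stdb n i, y⟫) θ, stdb n i⟫
    - (⟪cov t μ f θ, stdb n i⟫ * av t μ (fun y => ⟪stdb n i, y⟫) θ
      + av t μ f θ * ⟪cov t μ (fun y => ⟪stdb n i, y⟫) θ, stdb n i⟫)

section

variable {μ : Measure (Euc n)} [IsProbabilityMeasure μ] {R s T : ℝ}

lemma inner_cov_av (hS : Supp μ R) {t : ℝ} {f : Euc n → ℝ} (hf : Continuous f) (θ v : Euc n) :
    ⟪cov t μ f θ, v⟫ = av t μ (fun y => f y * ⟪v, y⟫) θ - av t μ f θ * av t μ (fun y => ⟪v, y⟫) θ := by
  have := isProb_fib (T := t) hS θ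
  have hsf := supp_fib (T := t) hS θ
  rw [real_inner_comm, cov, inner_sub_right, inner_smul_right, ← inner_bary hS,
    ← integral_inner (f := fun x => f x • x) (hsf.integrable (by fun_prop))]
  simp only [inner_smul_right, av]

lemma continuous_moment (hS : Supp μ R) {f : Euc n → ℝ} (hf : Continuous f) :
    Continuous fun p : ℝ × Euc n => ∫ x, wt p.1 p.2 x * f x ∂μ := by
  have hu : Continuous (Function.uncurry fun (p : ℝ × Euc n) (x : Euc n) => wt p.1 p.2 x * f x) := by
    unfold Function.uncurry wt; fun_prop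
  refine continuous_iff_continuousAt.2 fun p₀ => ?_
  obtain ⟨C, hC⟩ := ((isCompact_closedBall p₀ 1).prod (isCompact_closedBall (0 : Euc n) R)).exists_bound_of_continuousOn
    hu.continuousOn
  refine continuousAt_of_dominated
    (Eventually.of_forall fun p => (hu.comp (Continuous.prodMk_right p)).aestronglyMeasurable) ?_
    (integrable_const C) (Eventually.of_forall fun x => (hu.comp (Continuous.prodMk_left x)).continuousAt)
  filter_upwards [Metric.closedBall_mem_nhds p₀ one_pos] with p hp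
  exact hS.mono fun x hx => hC (p, x) ⟨hp, by simpa using hx⟩

lemma continuous_av_joint (hS : Supp μ R) {f : Euc n → ℝ} (hf : Continuous f) :
    Continuous fun p : ℝ × Euc n => av p.1 μ f p.2 := by
  have e : (fun p : ℝ × Euc n => av p.1 μ f p.2)
      = fun p => (∫ x, wt p.1 p.2 x * f x ∂μ) / ∫ x, wt p.1 p.2 x * (fun _ => (1 : ℝ)) x ∂μ :=
    funext fun p => by simp [av_eq, zf]
  rw [e]
  refine (continuous_moment hS hf).div (continuous_moment hS continuous_const) fun p => ?_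
  simpa [zf] using (zf_pos (T := p.1) hS p.2).ne'

lemma cb_av (hS : Supp μ R) (hR : 0 ≤ R) {f : Euc n → ℝ} (hf : Continuous f) :
    CB s T fun t θ => av t μ f θ := by
  obtain ⟨B, h0, hB⟩ := exists_bound hR hf
  exact ⟨(continuous_av_joint hS hf).continuousOn, B, h0, fun t _ θ => abs_av_le hS hB θ⟩

lemma cb_inner_cov (hS : Supp μ R) (hR : 0 ≤ R) {f : Euc n → ℝ} (hf : Continuous f) (v : Euc n) :
    CB s T fun t θ => ⟪cov t μ f θ, v⟫ :=
  ((cb_av hS hR (f := fun y => f y * ⟪v, y⟫) (by fun_prop)).add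
    ((cb_av hS hR hf).mul (cb_av hS hR (f := fun y => ⟪v, y⟫) (by fun_prop))).neg).congr fun t θ => by
    rw [inner_cov_av hS hf, sub_eq_add_neg]

lemma cb_cov (hS : Supp μ R) (hR : 0 ≤ R) {f : Euc n → ℝ} (hf : Continuous f) :
    CB s T fun t θ => cov t μ f θ :=
  (CB.sum Finset.univ fun i _ => (cb_inner_cov hS hR hf (stdb n i)).smul (CB.const (stdb n i))).congr fun t θ => by
    conv_lhs => rw [← (stdb n).sum_repr' (cov t μ f θ)]
    simp only [real_inner_comm]

/-- Joint derivative of the integrand of a moment. -/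
noncomputable def momL (_p : ℝ × Euc n) (x : Euc n) : ℝ × Euc n →L[ℝ] ℝ :=
  (innerSL ℝ x).comp (ContinuousLinearMap.snd ℝ ℝ (Euc n))
    - (1 / 2 * ‖x‖ ^ 2) • ContinuousLinearMap.fst ℝ ℝ (Euc n)

omit [IsProbabilityMeasure μ] in
lemma momL_apply (p : ℝ × Euc n) (x : Euc n) (r : ℝ) (v : Euc n) :
    momL p x (r, v) = ⟪v, x⟫ - 1 / 2 * ‖x‖ ^ 2 * r := by
  simp [momL, real_inner_comm x]

omit [IsProbabilityMeasure μ] in
lemma continuous_momL : Continuous fun q : (ℝ × Euc n) × Euc n => momL q.1 q.2 := by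
  unfold momL
  have h1 : Continuous fun q : (ℝ × Euc n) × Euc n => (innerSL ℝ q.2).comp (ContinuousLinearMap.snd ℝ ℝ (Euc n)) :=
    ((innerSL ℝ).continuous.comp continuous_snd).clm_comp continuous_const
  have h2 : Continuous fun q : (ℝ × Euc n) × Euc n => 1 / 2 * ‖q.2‖ ^ 2 := by fun_prop
  exact h1.sub (h2.smul continuous_const)

omit [IsProbabilityMeasure μ] in
lemma hasFDerivAt_integrand (h : Euc n → ℝ) (x : Euc n) (p : ℝ × Euc n) :
    HasFDerivAt (fun p : ℝ × Euc n => wt p.1 p.2 x * h x) ((wt p.1 p.2 x * h x) • momL p x) p := by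
  have h1 : HasFDerivAt (fun q : ℝ × Euc n => ⟪x, q.2⟫ - 1 / 2 * ‖x‖ ^ 2 * q.1) (momL p x) p := by
    unfold momL
    exact (((innerSL ℝ x).comp (ContinuousLinearMap.snd ℝ ℝ (Euc n))).hasFDerivAt).fun_sub
      ((ContinuousLinearMap.fst ℝ ℝ (Euc n)).hasFDerivAt.const_mul (1 / 2 * ‖x‖ ^ 2))
  have e : (fun q : ℝ × Euc n => wt q.1 q.2 x * h x)
      = fun q : ℝ × Euc n => exp (⟪x, q.2⟫ - 1 / 2 * ‖x‖ ^ 2 * q.1) * h x := funext fun q => by
    simp only [wt, real_inner_comm x]; ring_nf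
  rw [e]
  refine (h1.exp.mul_const (h x)).congr_fderiv ?_
  rw [smul_smul]
  simp only [wt, real_inner_comm x]
  ring_nf

lemma hasDerivAt_moment_path (hS : Supp μ R) {h : Euc n → ℝ} (hh : Continuous h) {t : ℝ} {c : ℝ → Euc n}
    {c' : Euc n} (hc : HasDerivAt c c' t) :
    HasDerivAt (fun r => ∫ x, wt r (c r) x * h x ∂μ)
      (∫ x, wt t (c t) x * ((⟪c', x⟫ - 1 / 2 * ‖x‖ ^ 2) * h x) ∂μ) t := by
  have hw : Continuous fun q : (ℝ × Euc n) × Euc n => wt q.1.1 q.1.2 q.2 * h q.2 := by unfold wt; fun_prop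
  have hc2 : Continuous fun q : (ℝ × Euc n) × Euc n => (wt q.1.1 q.1.2 q.2 * h q.2) • momL q.1 q.2 :=
    hw.smul continuous_momL
  obtain ⟨C, hC⟩ := ((isCompact_closedBall (t, c t) 1).prod (isCompact_closedBall (0 : Euc n) R)).exists_bound_of_continuousOn
    hc2.continuousOn
  have hwc : ∀ p : ℝ × Euc n, Continuous fun x => wt p.1 p.2 x * h x := fun p => (continuous_wt_snd _ _).mul hh
  have hcx : Continuous fun x : Euc n => (wt t (c t) x * h x) • momL (t, c t) x :=
    hc2.comp (f := fun x : Euc n => ((t, c t), x)) (by fun_prop)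
  obtain ⟨C₀, hC₀⟩ := (isCompact_closedBall (0 : Euc n) R).exists_bound_of_continuousOn hcx.continuousOn
  have hint : Integrable (fun x => (wt t (c t) x * h x) • momL (t, c t) x) μ :=
    Integrable.of_bound hcx.aestronglyMeasurable C₀ (hS.mono fun x hx => hC₀ x (by simpa using hx))
  have hJ := hasFDerivAt_integral_of_dominated_of_fderiv_le (𝕜 := ℝ) (μ := μ)
    (F := fun (p : ℝ × Euc n) x => wt p.1 p.2 x * h x) (F' := fun p x => (wt p.1 p.2 x * h x) • momL p x)
    (bound := fun _ => C) (s := Metric.ball (t, c t) 1) (Metric.ball_mem_nhds _ one_pos)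
    (Eventually.of_forall fun p => (hwc p).aestronglyMeasurable) (hS.integrable (hwc _)) hint.aestronglyMeasurable
    (hS.mono fun x hx p hp => hC (p, x) ⟨Metric.ball_subset_closedBall hp, by simpa using hx⟩)
    (integrable_const C) (Eventually.of_forall fun x p _ => hasFDerivAt_integrand h x p)
  refine (hJ.comp_hasDerivAt t ((hasDerivAt_id t).prodMk hc)).congr_deriv ?_
  rw [ContinuousLinearMap.integral_apply hint]
  refine integral_congr_ae (Eventually.of_forall fun x => ?_)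
  simp only [smul_apply, momL_apply, smul_eq_mul, mul_one]
  ring

lemma hasDerivAt_av_path (hS : Supp μ R) {f : Euc n → ℝ} (hf : Continuous f) {t : ℝ} {c : ℝ → Euc n}
    {c' : Euc n} (hc : HasDerivAt c c' t) :
    HasDerivAt (fun r => av r μ f (c r)) (momT μ f t (c t) + ⟪cov t μ f (c t), c'⟫) t := by
  have key := fun (h : Euc n → ℝ) (hh : Continuous h) => hasDerivAt_moment_path (μ := μ) hS hh hc
  have hz0 : (∫ x, wt t (c t) x * 1 ∂μ) ≠ 0 := by simpa [zf] using (zf_pos (T := t) hS (c t)).ne'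
  have hq := (key f hf).div (key (fun _ => 1) continuous_const) hz0
  have e : (fun r => av r μ f (c r)) = (fun r => ∫ x, wt r (c r) x * f x ∂μ) / fun r => ∫ x, wt r (c r) x * 1 ∂μ :=
    funext fun r => by simp [av_eq, zf]
  rw [e]
  refine hq.congr_deriv ?_
  have hav : ∀ k : Euc n → ℝ, ∫ x, wt t (c t) x * k x ∂μ = zf t μ (c t) * av t μ k (c t) := fun k => by
    rw [av_eq]; field_simp [(zf_pos (T := t) hS (c t)).ne']
  have hav1 : av t μ (fun _ => (1 : ℝ)) (c t) = 1 := av_const hS 1 _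
  have hlin : ∀ k : Euc n → ℝ, Continuous k → av t μ (fun x => (⟪c', x⟫ - 1 / 2 * ‖x‖ ^ 2) * k x) (c t)
      = av t μ (fun x => k x * ⟪c', x⟫) (c t) - 1 / 2 * av t μ (fun x => k x * ‖x‖ ^ 2) (c t) := fun k hk => by
    have := isProb_fib (T := t) hS (c t)
    have hsf := supp_fib (T := t) hS (c t)
    simp only [av]
    rw [← integral_const_mul, ← integral_sub (hsf.integrable (by fun_prop)) (hsf.integrable (by fun_prop))]
    exact integral_congr_ae (Eventually.of_forall fun x => by ring)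
  simp only [hav, hav1, hlin f hf, hlin (fun _ => 1) continuous_const, one_mul]
  rw [momT, inner_cov_av hS hf]
  have := (zf_pos (T := t) hS (c t)).ne'
  field_simp
  ring

lemma c12_av (hS : Supp μ R) (hR : 0 ≤ R) {f : Euc n → ℝ} (hf : Continuous f) :
    C12 s T (fun t θ => av t μ f θ) (momT μ f) (fun t θ => cov t μ f θ) (momD μ f) where
  cb := cb_av hS hR hf
  cbt := ((CB.const (-(1 / 2 : ℝ))).mul ((cb_av hS hR (f := fun y => f y * ‖y‖ ^ 2) (by fun_prop)).add
    ((cb_av hS hR hf).mul (cb_av hS hR (f := fun y : Euc n => ‖y‖ ^ 2) (by fun_prop))).neg)).congr fun t θ => by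
    rw [momT, sub_eq_add_neg]
  cb' := cb_cov hS hR hf
  cbD i := ((cb_inner_cov hS hR (f := fun y => f y * ⟪stdb n i, y⟫) (by fun_prop) _).add
    (((cb_inner_cov hS hR hf _).mul (cb_av hS hR (f := fun y => ⟪stdb n i, y⟫) (by fun_prop))).add
      ((cb_av hS hR hf).mul (cb_inner_cov hS hR (f := fun y => ⟪stdb n i, y⟫) (by fun_prop) _))).neg).congr fun t θ => by
    rw [momD, sub_eq_add_neg]
  dx t _ θ := hasFDerivAt_av hS hf θ
  dxx t _ θ i := by
    have hl : HasDerivAt (fun h : ℝ => θ + h • stdb n i) (stdb n i) 0 := by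
      simpa using ((hasDerivAt_id (0 : ℝ)).smul_const (stdb n i)).const_add θ
    have e0 : θ + (0 : ℝ) • stdb n i = θ := by simp
    have hk : ∀ k : Euc n → ℝ, Continuous k → HasDerivAt (fun h : ℝ => av t μ k (θ + h • stdb n i))
        ⟪cov t μ k θ, stdb n i⟫ 0 := fun k hk => by
      have h1 := (hasFDerivAt_av (T := t) hS hk (θ + (0 : ℝ) • stdb n i)).comp_hasDerivAt (0 : ℝ) hl
      simpa [e0, Function.comp_def] using h1
    have h := (hk (fun y => f y * ⟪stdb n i, y⟫) (by fun_prop)).fun_sub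
      ((hk f hf).fun_mul (hk (fun y => ⟪stdb n i, y⟫) (by fun_prop)))
    simp only [e0] at h
    refine h.congr_of_eventuallyEq (Eventually.of_forall fun k => ?_)
    simp only [inner_cov_av hS hf]
  dt t _ c c' hc := hasDerivAt_av_path hS hf hc

/-- Fibre moments are space-time harmonic. -/
lemma gv_av (hS : Supp μ R) {f : Euc n → ℝ} (hf : Continuous f) (t : ℝ) (θ : Euc n) :
    gv 1 (bary t μ θ) (momT μ f t θ) (cov t μ f θ) (fun i => momD μ f i t θ) = 0 := by
  have := isProb_fib (T := t) hS θ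
  have hsf := supp_fib (T := t) hS θ
  have hb : ∀ i, av t μ (fun y => ⟪stdb n i, y⟫) θ = ⟪stdb n i, bary t μ θ⟫ := fun i => inner_bary hS θ _
  have hsum : ∀ k : Euc n → ℝ, Continuous k →
      ∑ i, av t μ (fun y => k y * ⟪stdb n i, y⟫ * ⟪stdb n i, y⟫) θ = av t μ (fun y => k y * ‖y‖ ^ 2) θ := fun k hk => by
    simp only [av]
    rw [← integral_finsetSum _ fun i _ => hsf.integrable (by fun_prop)]
    refine integral_congr_ae (Eventually.of_forall fun y => ?_)
    simp only [norm_sq_eq_sum (stdb n) y, Finset.mul_sum]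
    exact Finset.sum_congr rfl fun i _ => by ring
  have e1 : ⟪cov t μ f θ, bary t μ θ⟫
      = ∑ i, (av t μ (fun y => f y * ⟪stdb n i, y⟫) θ - av t μ f θ * ⟪stdb n i, bary t μ θ⟫) * ⟪stdb n i, bary t μ θ⟫ := by
    rw [inner_eq_sum (stdb n)]
    refine Finset.sum_congr rfl fun i _ => ?_
    rw [real_inner_comm (cov t μ f θ), inner_cov_av hS hf, hb]
  have h2 := hsum f hf
  have h3 := hsum (fun _ => 1) continuous_const
  simp only [one_mul] at h3
  have e2 : ∀ i, momD μ f i t θ = av t μ (fun y => f y * ⟪stdb n i, y⟫ * ⟪stdb n i, y⟫) θ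
      - av t μ f θ * av t μ (fun y => ⟪stdb n i, y⟫ * ⟪stdb n i, y⟫) θ
      - 2 * ((av t μ (fun y => f y * ⟪stdb n i, y⟫) θ - av t μ f θ * ⟪stdb n i, bary t μ θ⟫) * ⟪stdb n i, bary t μ θ⟫) := fun i => by
    rw [momD, inner_cov_av hS (by fun_prop), inner_cov_av hS hf, inner_cov_av hS (by fun_prop)]
    simp only [hb]; ring
  simp only [gv, e1, e2, momT, Finset.sum_sub_distrib, ← Finset.mul_sum, h2, h3]
  ring

end

end Vale.Agent.P245N.Pig
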