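import Vale.Agent.P245N.Pigeon.Path

open MeasureTheory Real Filter Set
open scoped Topology RealInnerProductSpace

namespace Vale.Agent.P245N.Pig

open Vale.Agent.P245

variable {n : ℕ}

/-- Generator with drift `b` and diffusion sign `σ`, applied to pointwise derivative data. -/
noncomputable def gv (σ : ℝ) (b : Euc n) (ft : ℝ) (f' : Euc n) (d : Fin n → ℝ) : ℝ :=
  ft + ⟪f', b⟫ + σ / 2 * ∑ i, d i

lemma gv_add (σ : ℝ) (b : Euc n) (ft gt : ℝ) (f' g' : Euc n) (d e : Fin n → ℝ) :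
    gv σ b (ft + gt) (f' + g') (fun i => d i + e i) = gv σ b ft f' d + gv σ b gt g' e := by
  simp only [gv, inner_add_left, Finset.sum_add_distrib]; ring

lemma gv_mul (σ : ℝ) (b : Euc n) (f g ft gt : ℝ) (f' g' : Euc n) (d e : Fin n → ℝ) :
    gv σ b (ft * g + f * gt) (g • f' + f • g')
        (fun i => d i * g + 2 * (⟪f', stdb n i⟫ * ⟪g', stdb n i⟫) + f * e i)
      = g * gv σ b ft f' d + f * gv σ b gt g' e + σ * ⟪f', g'⟫ := by
  have e1 : ⟪f', g'⟫ = ∑ i, ⟪f', stdb n i⟫ * ⟪g', stdb n i⟫ := by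
    rw [inner_eq_sum (stdb n)]; simp only [real_inner_comm (stdb n _)]
  simp only [gv, inner_add_left, real_inner_smul_left, e1, Finset.sum_add_distrib, ← Finset.sum_mul, ← Finset.mul_sum]
  ring

lemma gv_inv (σ : ℝ) (b : Euc n) {f : ℝ} (hf : f ≠ 0) (ft : ℝ) (f' : Euc n) (d : Fin n → ℝ) :
    gv σ b (-ft / f ^ 2) ((-1 / f ^ 2) • f') (fun i => -d i / f ^ 2 + 2 * ⟪f', stdb n i⟫ ^ 2 / f ^ 3)
      = -gv σ b ft f' d / f ^ 2 + σ * ‖f'‖ ^ 2 / f ^ 3 := by
  have e1 : ‖f'‖ ^ 2 = ∑ i, ⟪f', stdb n i⟫ ^ 2 := by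
    rw [norm_sq_eq_sum (stdb n)]; simp only [real_inner_comm (stdb n _)]
  simp only [gv, real_inner_smul_left, e1, Finset.sum_add_distrib, ← Finset.sum_div, Finset.sum_neg_distrib, ← Finset.mul_sum]
  field_simp
  ring

section

variable {s T : ℝ}

lemma CB.add {V : Type*} [NormedAddCommGroup V] {F G : ℝ → Euc n → V} (hF : CB s T F) (hG : CB s T G) :
    CB s T fun t θ => F t θ + G t θ := by
  obtain ⟨cF, BF, h0, hBF⟩ := hF
  obtain ⟨cG, BG, h1, hBG⟩ := hG
  exact ⟨cF.add cG, BF + BG, add_nonneg h0 h1,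
    fun t ht θ => (norm_add_le _ _).trans (add_le_add (hBF t ht θ) (hBG t ht θ))⟩

lemma CB.const {V : Type*} [NormedAddCommGroup V] (v : V) : CB (n := n) s T fun _ _ => v :=
  ⟨continuousOn_const, ‖v‖, norm_nonneg _, fun _ _ _ => le_rfl⟩

lemma CB.smul {V : Type*} [NormedAddCommGroup V] [NormedSpace ℝ V] {F : ℝ → Euc n → ℝ} {G : ℝ → Euc n → V}
    (hF : CB s T F) (hG : CB s T G) : CB s T fun t θ => F t θ • G t θ := by
  obtain ⟨cF, BF, h0, hBF⟩ := hF
  obtain ⟨cG, BG, h1, hBG⟩ := hG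
  exact ⟨cF.smul cG, BF * BG, mul_nonneg h0 h1,
    fun t ht θ => (norm_smul _ _).trans_le (mul_le_mul (hBF t ht θ) (hBG t ht θ) (norm_nonneg _) h0)⟩

lemma CB.mul {F G : ℝ → Euc n → ℝ} (hF : CB s T F) (hG : CB s T G) : CB s T fun t θ => F t θ * G t θ :=
  hF.smul hG

lemma CB.neg {V : Type*} [NormedAddCommGroup V] {F : ℝ → Euc n → V} (hF : CB s T F) :
    CB s T fun t θ => -F t θ := by
  obtain ⟨cF, BF, h0, hBF⟩ := hF
  exact ⟨cF.neg, BF, h0, fun t ht θ => by rw [norm_neg]; exact hBF t ht θ⟩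

lemma CB.inner_const {F : ℝ → Euc n → Euc n} (hF : CB s T F) (v : Euc n) : CB s T fun t θ => ⟪F t θ, v⟫ := by
  obtain ⟨cF, BF, h0, hBF⟩ := hF
  exact ⟨cF.inner continuousOn_const, BF * ‖v‖, by positivity, fun t ht θ =>
    (norm_inner_le_norm _ _).trans (mul_le_mul_of_nonneg_right (hBF t ht θ) (norm_nonneg _))⟩

lemma CB.sum {ι : Type*} (S : Finset ι) {V : Type*} [NormedAddCommGroup V] {F : ι → ℝ → Euc n → V}
    (hF : ∀ i ∈ S, CB s T (F i)) : CB s T fun t θ => ∑ i ∈ S, F i t θ := by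
  classical
  induction S using Finset.induction with
  | empty => simpa using CB.const (n := n) (s := s) (T := T) (0 : V)
  | insert a S ha ih =>
    simp only [Finset.sum_insert ha]
    exact (hF a (Finset.mem_insert_self _ _)).add (ih fun i hi => hF i (Finset.mem_insert_of_mem hi))

lemma CB.inv {F : ℝ → Euc n → ℝ} (hF : CB s T F) {m : ℝ} (hm : 0 < m) (h : ∀ t ∈ Icc s T, ∀ θ, m ≤ F t θ) :
    CB s T fun t θ => (F t θ)⁻¹ := by
  obtain ⟨cF, -, -, -⟩ := hF
  refine ⟨cF.inv₀ fun p hp => (hm.trans_le (h p.1 hp.1 p.2)).ne', m⁻¹, by positivity, fun t ht θ => ?_⟩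
  rw [norm_inv, norm_eq_abs, abs_of_pos (hm.trans_le (h t ht θ))]
  exact inv_anti₀ hm (h t ht θ)

lemma CB.congr {V : Type*} [NormedAddCommGroup V] {F G : ℝ → Euc n → V} (hF : CB s T F)
    (h : ∀ t θ, G t θ = F t θ) : CB s T G := by
  rwa [show G = F from funext fun t => funext (h t)]

variable {F Ft G Gt : ℝ → Euc n → ℝ} {F' G' : ℝ → Euc n → Euc n} {D E : Fin n → ℝ → Euc n → ℝ}

lemma C12.const (c : ℝ) : C12 (n := n) s T (fun _ _ => c) (fun _ _ => 0) (fun _ _ => 0) (fun _ _ _ => 0) where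
  cb := CB.const c
  cbt := CB.const 0
  cb' := CB.const 0
  cbD _ := CB.const 0
  dx t _ θ := by simpa using hasFDerivAt_const c θ
  dxx t _ θ i := by simpa using hasDerivAt_const (0 : ℝ) (0 : ℝ)
  dt t _ c₁ c' _ := by simpa using hasDerivAt_const t c

lemma C12.add (hF : C12 s T F Ft F' D) (hG : C12 s T G Gt G' E) :
    C12 s T (fun t θ => F t θ + G t θ) (fun t θ => Ft t θ + Gt t θ) (fun t θ => F' t θ + G' t θ)
      (fun i t θ => D i t θ + E i t θ) where
  cb := hF.cb.add hG.cb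
  cbt := hF.cbt.add hG.cbt
  cb' := hF.cb'.add hG.cb'
  cbD i := (hF.cbD i).add (hG.cbD i)
  dx t ht θ := by
    refine ((hF.dx t ht θ).fun_add (hG.dx t ht θ)).congr_fderiv ?_
    rw [map_add]
  dxx t ht θ i := by
    refine ((hF.dxx t ht θ i).fun_add (hG.dxx t ht θ i)).congr_of_eventuallyEq (Eventually.of_forall fun h => ?_)
    simp only [inner_add_left]
  dt t ht c c' hc := by
    refine ((hF.dt t ht c c' hc).fun_add (hG.dt t ht c c' hc)).congr_deriv ?_
    simp only [inner_add_left]; ring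

lemma C12.mul (hF : C12 s T F Ft F' D) (hG : C12 s T G Gt G' E) :
    C12 s T (fun t θ => F t θ * G t θ) (fun t θ => Ft t θ * G t θ + F t θ * Gt t θ)
      (fun t θ => G t θ • F' t θ + F t θ • G' t θ)
      (fun i t θ => D i t θ * G t θ + 2 * (⟪F' t θ, stdb n i⟫ * ⟪G' t θ, stdb n i⟫) + F t θ * E i t θ) where
  cb := hF.cb.mul hG.cb
  cbt := (hF.cbt.mul hG.cb).add (hF.cb.mul hG.cbt)
  cb' := (hG.cb.smul hF.cb').add (hF.cb.smul hG.cb')
  cbD i := (((hF.cbD i).mul hG.cb).add ((CB.const 2).mul ((hF.cb'.inner_const _).mul (hG.cb'.inner_const _)))).add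
    (hF.cb.mul (hG.cbD i))
  dx t ht θ := by
    refine ((hF.dx t ht θ).fun_mul (hG.dx t ht θ)).congr_fderiv ?_
    rw [map_add, map_smul, map_smul, add_comm]
  dxx t ht θ i := by
    have hl : HasDerivAt (fun h : ℝ => θ + h • stdb n i) (stdb n i) 0 := by
      simpa using ((hasDerivAt_id (0 : ℝ)).smul_const (stdb n i)).const_add θ
    have e0 : θ + (0 : ℝ) • stdb n i = θ := by simp
    have hf := (hF.dx t ht (θ + (0 : ℝ) • stdb n i)).comp_hasDerivAt (0 : ℝ) hl
    have hg := (hG.dx t ht (θ + (0 : ℝ) • stdb n i)).comp_hasDerivAt (0 : ℝ) hl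
    simp only [e0, innerSL_apply_apply, Function.comp_def] at hf hg
    refine (((hF.dxx t ht θ i).mul hg).add (hf.mul (hG.dxx t ht θ i))).congr_of_eventuallyEq
      (Eventually.of_forall fun h => ?_) |>.congr_deriv ?_
    · simp only [inner_add_left, real_inner_smul_left, Pi.add_apply, Pi.mul_apply]; ring
    · simp only [e0]; ring
  dt t ht c c' hc := by
    refine ((hF.dt t ht c c' hc).fun_mul (hG.dt t ht c c' hc)).congr_deriv ?_
    simp only [inner_add_left, real_inner_smul_left]; ring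

lemma C12.inv (hF : C12 s T F Ft F' D) {m : ℝ} (hm : 0 < m) (h : ∀ t ∈ Icc s T, ∀ θ, m ≤ F t θ) :
    C12 s T (fun t θ => (F t θ)⁻¹) (fun t θ => -Ft t θ / F t θ ^ 2) (fun t θ => (-1 / F t θ ^ 2) • F' t θ)
      (fun i t θ => -D i t θ / F t θ ^ 2 + 2 * ⟪F' t θ, stdb n i⟫ ^ 2 / F t θ ^ 3) where
  cb := hF.cb.inv hm h
  cbt := ((hF.cbt.neg).mul ((hF.cb.inv hm h).mul (hF.cb.inv hm h))).congr fun t θ => by
    rw [div_eq_mul_inv, sq, mul_inv]
  cb' := (((CB.const (-1 : ℝ)).mul ((hF.cb.inv hm h).mul (hF.cb.inv hm h))).smul hF.cb').congr fun t θ => by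
    rw [div_eq_mul_inv, sq, mul_inv]
  cbD i := ((hF.cbD i).neg.mul ((hF.cb.inv hm h).mul (hF.cb.inv hm h))).add
    ((((CB.const 2).mul ((hF.cb'.inner_const (stdb n i)).mul (hF.cb'.inner_const (stdb n i)))).mul
      ((hF.cb.inv hm h).mul ((hF.cb.inv hm h).mul (hF.cb.inv hm h)))).congr fun t θ => rfl) |>.congr fun t θ => by
    ring
  dx t ht θ := by
    have hne := (hm.trans_le (h t ht θ)).ne'
    refine ((hasDerivAt_inv hne).comp_hasFDerivAt θ (hF.dx t ht θ)).congr_fderiv ?_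
    ext v; simp [neg_div]
  dxx t ht θ i := by
    have hne := (hm.trans_le (h t ht θ)).ne'
    have hl : HasDerivAt (fun h : ℝ => θ + h • stdb n i) (stdb n i) 0 := by
      simpa using ((hasDerivAt_id (0 : ℝ)).smul_const (stdb n i)).const_add θ
    have e0 : θ + (0 : ℝ) • stdb n i = θ := by simp
    have hf := (hF.dx t ht (θ + (0 : ℝ) • stdb n i)).comp_hasDerivAt (0 : ℝ) hl
    simp only [e0, innerSL_apply_apply, Function.comp_def] at hf
    have hz : F t (θ + (0 : ℝ) • stdb n i) ^ 2 ≠ 0 := by rw [e0]; exact pow_ne_zero _ hne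
    refine (((hasDerivAt_const (0 : ℝ) (-1 : ℝ)).fun_div (hf.fun_pow 2) hz).fun_mul (hF.dxx t ht θ i)).congr_of_eventuallyEq
      (Eventually.of_forall fun k => ?_) |>.congr_deriv ?_
    · simp only [real_inner_smul_left]
    · simp only [e0]; field_simp; ring
  dt t ht c c' hc := by
    have hne := (hm.trans_le (h t (Ioo_subset_Icc_self ht) (c t))).ne'
    refine ((hasDerivAt_inv hne).comp t (hF.dt t ht c c' hc)).congr_deriv ?_
    rw [real_inner_smul_left]; field_simp; ring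

lemma C12.congr (hF : C12 s T F Ft F' D) {F₁ : ℝ → Euc n → ℝ} (h : ∀ t θ, F₁ t θ = F t θ) :
    C12 s T F₁ Ft F' D := by
  rwa [show F₁ = F from funext fun t => funext (h t)]

lemma C12.fin_sum {ι : Type*} (S : Finset ι) {F Ft : ι → ℝ → Euc n → ℝ} {F' : ι → ℝ → Euc n → Euc n}
    {D : ι → Fin n → ℝ → Euc n → ℝ} (h : ∀ k ∈ S, C12 s T (F k) (Ft k) (F' k) (D k)) :
    C12 s T (fun t θ => ∑ k ∈ S, F k t θ) (fun t θ => ∑ k ∈ S, Ft k t θ) (fun t θ => ∑ k ∈ S, F' k t θ)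
      (fun i t θ => ∑ k ∈ S, D k i t θ) := by
  classical
  induction S using Finset.induction with
  | empty => simpa using C12.const (n := n) (s := s) (T := T) 0
  | insert a S ha ih =>
    simp only [Finset.sum_insert ha]
    exact (h a (Finset.mem_insert_self _ _)).add (ih fun k hk => h k (Finset.mem_insert_of_mem hk))

end

end Vale.Agent.P245N.Pig
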