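import Vale.Agent.P245.Law

open MeasureTheory Real Filter Set
open scoped Topology RealInnerProductSpace

namespace Vale.Agent.P245N.Pig

open Vale.Agent.P245

variable {n : ℕ}

/-- Gaussian integration by parts in the direction `v`. -/
lemma gam_ibp (v : Euc n) {V V' : Euc n → ℝ} (hV : Continuous V) (hV' : Continuous V')
    (hd : ∀ G, HasDerivAt (fun h : ℝ => V (G + h • v)) (V' G) 0) {B B' : ℝ}
    (hB : ∀ G, |V G| ≤ B) (hB' : ∀ G, |V' G| ≤ B') :
    ∫ G, V' G ∂(gam n) = ∫ G, ⟪v, G⟫ * V G ∂(gam n) := by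
  have hd' : ∀ G (h₀ : ℝ), HasDerivAt (fun h : ℝ => V (G + h • v)) (V' (G + h₀ • v)) h₀ := fun G h₀ => by
    have h1 := hd (G + h₀ • v)
    rw [← sub_self h₀] at h1
    refine (h1.comp_sub_const h₀ h₀).congr_of_eventuallyEq (Eventually.of_forall fun h => ?_)
    simp only
    congr 1
    module
  have hB0 : 0 ≤ B := (abs_nonneg _).trans (hB 0)
  have hL := (hasDerivAt_integral_of_dominated_loc_of_deriv_le (μ := gam n) (s := univ) (bound := fun _ => B')
    (F := fun h G => V (G + h • v)) (F' := fun h G => V' (G + h • v)) (x₀ := (0 : ℝ)) univ_mem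
    (Eventually.of_forall fun h => (hV.comp (by fun_prop)).aestronglyMeasurable)
    (integrable_gam_bdd (hV.comp (by fun_prop)) fun G => hB _)
    (hV'.comp (by fun_prop)).aestronglyMeasurable
    (Eventually.of_forall fun G h _ => by simpa using hB' (G + h • v))
    (integrable_const _) (Eventually.of_forall fun G h _ => hd' G h)).2
  have hbd : Integrable (fun G => exp (2 * ‖v‖ * ‖G‖) * ((‖v‖ + ‖v‖ ^ 2 + 1) * B)) (gam n) :=
    (expInt_gam _).mul_const _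
  have hw : ∀ G (h : ℝ), HasDerivAt (fun h : ℝ => exp (h * ⟪v, G⟫ - h ^ 2 * ‖v‖ ^ 2 / 2) * V G)
      (exp (h * ⟪v, G⟫ - h ^ 2 * ‖v‖ ^ 2 / 2) * (⟪v, G⟫ - h * ‖v‖ ^ 2) * V G) h := fun G h => by
    have h1 := (((hasDerivAt_id h).mul_const ⟪v, G⟫).sub
      ((((hasDerivAt_id h).pow 2).mul_const (‖v‖ ^ 2)).div_const 2)).exp.mul_const (V G)
    simp only [id, Pi.sub_apply, Pi.pow_apply] at h1
    refine h1.congr_deriv ?_
    push_cast
    ring
  have hR := (hasDerivAt_integral_of_dominated_loc_of_deriv_le (μ := gam n) (x₀ := (0 : ℝ))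
    (s := Metric.ball (0 : ℝ) 1) (F := fun h G => exp (h * ⟪v, G⟫ - h ^ 2 * ‖v‖ ^ 2 / 2) * V G)
    (F' := fun h G => exp (h * ⟪v, G⟫ - h ^ 2 * ‖v‖ ^ 2 / 2) * (⟪v, G⟫ - h * ‖v‖ ^ 2) * V G)
    (Metric.ball_mem_nhds 0 one_pos)
    (Eventually.of_forall fun h => (Continuous.mul (by fun_prop) hV).aestronglyMeasurable)
    (integrable_gam_bdd (Continuous.mul (by fun_prop) hV) (B := B) fun G => by simpa using hB G)
    (Continuous.mul (by fun_prop) hV).aestronglyMeasurable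
    (Eventually.of_forall fun G h hh => by
      rw [Metric.mem_ball, dist_zero_right, norm_eq_abs] at hh
      have ha := abs_real_inner_le_norm v G
      have hv0 := norm_nonneg v
      have hG0 := norm_nonneg G
      have h1 : h * ⟪v, G⟫ ≤ ‖v‖ * ‖G‖ := by
        refine (le_abs_self _).trans ?_
        rw [abs_mul]
        exact (mul_le_of_le_one_left (abs_nonneg _) hh.le).trans ha
      have h2 : |⟪v, G⟫ - h * ‖v‖ ^ 2| ≤ ‖v‖ * ‖G‖ + ‖v‖ ^ 2 := by
        refine (abs_sub _ _).trans (add_le_add ha ?_)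
        rw [abs_mul, abs_of_nonneg (sq_nonneg ‖v‖)]
        exact mul_le_of_le_one_left (sq_nonneg _) hh.le
      rw [norm_eq_abs, abs_mul, abs_mul, abs_exp]
      have h3 := add_one_le_exp (‖v‖ * ‖G‖)
      have h4 : ‖v‖ * ‖G‖ + ‖v‖ ^ 2 ≤ exp (‖v‖ * ‖G‖) * (‖v‖ + ‖v‖ ^ 2 + 1) := by
        nlinarith [mul_nonneg (mul_nonneg hv0 hG0) (add_nonneg hv0 (sq_nonneg ‖v‖))]
      calc exp (h * ⟪v, G⟫ - h ^ 2 * ‖v‖ ^ 2 / 2) * |⟪v, G⟫ - h * ‖v‖ ^ 2| * |V G|
          ≤ exp (‖v‖ * ‖G‖) * (exp (‖v‖ * ‖G‖) * (‖v‖ + ‖v‖ ^ 2 + 1)) * B := by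
            gcongr
            · nlinarith [sq_nonneg (h * ‖v‖)]
            · exact h2.trans h4
            · exact hB G
        _ = exp (2 * ‖v‖ * ‖G‖) * ((‖v‖ + ‖v‖ ^ 2 + 1) * B) := by
            rw [show 2 * ‖v‖ * ‖G‖ = ‖v‖ * ‖G‖ + ‖v‖ * ‖G‖ by ring, exp_add]; ring)
    hbd (Eventually.of_forall fun G h _ => hw G h)).2
  have e : (fun h : ℝ => ∫ G, V (G + h • v) ∂(gam n))
      = fun h : ℝ => ∫ G, exp (h * ⟪v, G⟫ - h ^ 2 * ‖v‖ ^ 2 / 2) * V G ∂(gam n) := funext fun h => by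
    rw [integral_gam_shift V (h • v)]
    refine integral_congr_ae (Eventually.of_forall fun G => ?_)
    simp [real_inner_smul_left, norm_smul, mul_pow]
  rw [e] at hL
  have h := hL.unique hR
  simpa using h

end Vale.Agent.P245N.Pig
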