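import Vale.Agent.P245N.Pigeon.Ibp

open MeasureTheory Real Filter Set
open scoped Topology RealInnerProductSpace

namespace Vale.Agent.P245N.Pig

open Vale.Agent.P245

variable {n : ℕ}

/-- A bounded jointly continuous function of time and parameter. -/
def CB {V : Type*} [NormedAddCommGroup V] (s T : ℝ) (F : ℝ → Euc n → V) : Prop :=
  ContinuousOn (fun p : ℝ × Euc n => F p.1 p.2) (Icc s T ×ˢ univ) ∧
    ∃ B, 0 ≤ B ∧ ∀ t ∈ Icc s T, ∀ θ, ‖F t θ‖ ≤ B

lemma CB.cont {V : Type*} [NormedAddCommGroup V] {s T : ℝ} {F : ℝ → Euc n → V} (h : CB s T F) {t : ℝ}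
    (ht : t ∈ Icc s T) : Continuous (F t) :=
  continuousOn_univ.1 (h.1.comp (Continuous.prodMk_right t).continuousOn fun _ _ => ⟨ht, mem_univ _⟩)

/-- Data of a function that is once differentiable in time and twice in the parameter. -/
structure C12 (s T : ℝ) (F Ft : ℝ → Euc n → ℝ) (F' : ℝ → Euc n → Euc n)
    (D : Fin n → ℝ → Euc n → ℝ) : Prop where
  cb : CB s T F
  cbt : CB s T Ft
  cb' : CB s T F'
  cbD : ∀ i, CB s T (D i)
  dx : ∀ t ∈ Icc s T, ∀ θ, HasFDerivAt (F t) (innerSL ℝ (F' t θ)) θ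
  dxx : ∀ t ∈ Icc s T, ∀ θ, ∀ i, HasDerivAt (fun h : ℝ => ⟪F' t (θ + h • stdb n i), stdb n i⟫) (D i t θ) 0
  dt : ∀ t ∈ Ioo s T, ∀ c : ℝ → Euc n, ∀ c' : Euc n, HasDerivAt c c' t →
    HasDerivAt (fun r => F r (c r)) (Ft t (c t) + ⟪F' t (c t), c'⟫) t

section

variable {μ : Measure (Euc n)} [IsProbabilityMeasure μ] {R s T : ℝ}

lemma pt_eq {t : ℝ} (ht : 0 ≤ t) (x G : Euc n) : pt (√t) x G = t • x + √t • G := by
  rw [pt, Real.sq_sqrt ht]

lemma hasDerivAt_pt {t : ℝ} (ht : 0 < t) (x G : Euc n) :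
    HasDerivAt (fun r => pt (√r) x G) (x + (1 / (2 * √t)) • G) t := by
  have h1 := ((hasDerivAt_id t).smul_const x).add ((hasDerivAt_sqrt ht.ne').smul_const G)
  simp only [one_smul, id] at h1
  refine h1.congr_of_eventuallyEq ?_
  filter_upwards [lt_mem_nhds ht] with r hr
  simp [pt_eq (le_of_lt hr)]

lemma integrable_path (hS : Supp μ R) {H : Euc n → Euc n → ℝ} (hH : Continuous (Function.uncurry H)) {a b : ℝ}
    (hb : ∀ x G, ‖x‖ ≤ R → |H x G| ≤ a + b * ‖G‖) : Integrable (Function.uncurry H) (μ.prod (gam n)) :=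
  integrable_prod_gam hS hH (A := |a| + |b|) (c := 1) fun x G hx => by
    refine (hb x G hx).trans ?_
    have h1 := add_one_le_exp (1 * ‖G‖)
    have h2 := one_le_exp (show 0 ≤ 1 * ‖G‖ by positivity)
    have h3 : a ≤ |a| * exp (1 * ‖G‖) := (le_abs_self a).trans (le_mul_of_one_le_right (abs_nonneg _) h2)
    have h4 : b * ‖G‖ ≤ |b| * exp (1 * ‖G‖) :=
      mul_le_mul (le_abs_self b) (by linarith) (norm_nonneg _) (abs_nonneg _)
    linarith

/-- The two integrations by parts along the path at a fixed time. -/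
lemma path_ibp (hS : Supp μ R) (hR : 0 ≤ R) {t : ℝ} (ht0 : 0 < t) {V : Euc n → Euc n} {D : Fin n → Euc n → ℝ}
    (hVc : Continuous V) {B' : ℝ} (hB' : ∀ z, ‖V z‖ ≤ B') (hDc : ∀ i, Continuous (D i)) (BD : Fin n → ℝ)
    (hBD : ∀ i z, |D i z| ≤ BD i)
    (hd : ∀ z i, HasDerivAt (fun h : ℝ => ⟪V (z + h • stdb n i), stdb n i⟫) (D i z) 0) :
    (∫ p : Euc n × Euc n, ⟪V (pt (√t) p.1 p.2), p.1⟫ ∂(μ.prod (gam n))
      = ∫ p : Euc n × Euc n, ⟪V (pt (√t) p.1 p.2), bary t μ (pt (√t) p.1 p.2)⟫ ∂(μ.prod (gam n))) ∧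
    (∫ p : Euc n × Euc n, ⟪V (pt (√t) p.1 p.2), p.2⟫ ∂(μ.prod (gam n))
      = √t * ∫ p : Euc n × Euc n, ∑ i, D i (pt (√t) p.1 p.2) ∂(μ.prod (gam n))) := by
  set P := μ.prod (gam n) with hP
  set Z := fun p : Euc n × Euc n => pt (√t) p.1 p.2 with hZ
  have hB'0 : 0 ≤ B' := (norm_nonneg _).trans (hB' 0)
  have hZc : Continuous Z := by rw [hZ]; unfold pt; fun_prop
  have hBH : ∀ x G y : Euc n, |⟪V (Z (x, G)), y⟫| ≤ B' * ‖y‖ := fun x G y =>
    (abs_real_inner_le_norm _ _).trans (mul_le_mul_of_nonneg_right (hB' _) (norm_nonneg _))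
  have i2 : Integrable (fun p => ⟪V (Z p), p.1⟫) P :=
    integrable_path (H := fun x G => ⟪V (Z (x, G)), x⟫) hS ((hVc.comp hZc).inner continuous_fst) (a := B' * R)
      (b := 0) fun x G hx1 => (hBH x G x).trans (by nlinarith)
  have i3 : Integrable (fun p => ⟪V (Z p), p.2⟫) P :=
    integrable_path (H := fun x G => ⟪V (Z (x, G)), G⟫) hS ((hVc.comp hZc).inner continuous_snd) (a := 0)
      (b := B') fun x G _ => (hBH x G G).trans (by linarith)
  have iD : ∀ i, Integrable (fun p => D i (Z p)) P := fun i =>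
    Integrable.of_bound ((hDc i).comp hZc).aestronglyMeasurable (BD i) (Eventually.of_forall fun p => hBD i _)
  have eG : ∫ p, ⟪V (Z p), p.2⟫ ∂P = √t * ∫ p, ∑ i, D i (Z p) ∂P := by
    rw [integral_prod _ i3, integral_prod _ (integrable_finsetSum _ fun i _ => iD i), ← integral_const_mul]
    refine integral_congr_ae (Eventually.of_forall fun x => ?_)
    have hzc : Continuous fun G => Z (x, G) := continuous_pt _ x
    have e1 : ∀ i, ∫ G, √t * D i (Z (x, G)) ∂(gam n)
        = ∫ G, ⟪stdb n i, G⟫ * ⟪V (Z (x, G)), stdb n i⟫ ∂(gam n) := fun i => by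
      refine gam_ibp (stdb n i) ((hVc.comp hzc).inner continuous_const)
        (((hDc i).comp hzc).const_mul _) (fun G => ?_) (B := B' * ‖stdb n i‖)
        (B' := √t * BD i) (fun G => hBH _ _ _) fun G => ?_
      · have h0 := hd (Z (x, G)) i
        rw [show (0 : ℝ) = √t * 0 by ring] at h0
        have h1 := h0.comp (0 : ℝ) (((hasDerivAt_id (0 : ℝ)).const_mul (√t)))
        simp only [Function.comp_def, mul_one] at h1
        refine (h1.congr_of_eventuallyEq (Eventually.of_forall fun k => ?_)).congr_deriv (mul_comm _ _)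
        simp only [hZ, pt]
        congr 2
        module
      · rw [abs_mul, abs_of_nonneg (Real.sqrt_nonneg t)]
        exact mul_le_mul_of_nonneg_left (hBD i _) (Real.sqrt_nonneg t)
    have hiV : ∀ i, Integrable (fun G => ⟪stdb n i, G⟫ * ⟪V (Z (x, G)), stdb n i⟫) (gam n) := fun i =>
      expInt_gam.of_growth (A := B' * ‖stdb n i‖ * ‖stdb n i‖) (c := 1)
        ((continuous_const.inner continuous_id).mul ((hVc.comp hzc).inner continuous_const))
        fun G => by
          rw [norm_mul, norm_eq_abs, norm_eq_abs]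
          calc |⟪stdb n i, G⟫| * |⟪V (Z (x, G)), stdb n i⟫|
              ≤ ‖stdb n i‖ * ‖G‖ * (B' * ‖stdb n i‖) :=
                mul_le_mul (abs_real_inner_le_norm _ _) (hBH _ _ _) (abs_nonneg _) (by positivity)
            _ ≤ B' * ‖stdb n i‖ * ‖stdb n i‖ * exp (1 * ‖G‖) := by
                have := add_one_le_exp (1 * ‖G‖)
                nlinarith [mul_nonneg hB'0 (sq_nonneg ‖stdb n i‖), norm_nonneg G]
    simp only [← integral_const_mul, Finset.mul_sum]
    rw [integral_finsetSum _ fun i _ => ?_]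
    · simp only [e1]
      rw [← integral_finsetSum _ fun i _ => hiV i]
      refine integral_congr_ae (Eventually.of_forall fun G => ?_)
      simp only
      rw [inner_eq_sum (stdb n)]
      exact Finset.sum_congr rfl fun i _ => by rw [real_inner_comm _ (stdb n i)]; ring
    · exact (integrable_gam_bdd ((hDc i).comp hzc) fun G => hBD i _).const_mul _
  set cl := fun y : Euc n => ((R + 1) / max ‖y‖ (R + 1)) • y with hcl
  have hclc : Continuous cl :=
    (continuous_const.div (continuous_norm.max continuous_const) fun y => (ne_of_gt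
      ((show (0 : ℝ) < R + 1 by linarith).trans_le (le_max_right _ _)))).smul continuous_id
  have hclb : ∀ y, ‖cl y‖ ≤ R + 1 := fun y => by
    have hm : 0 < max ‖y‖ (R + 1) := (show (0 : ℝ) < R + 1 by linarith).trans_le (le_max_right _ _)
    rw [hcl, norm_smul, norm_eq_abs, abs_of_pos (div_pos (by linarith) hm), div_mul_eq_mul_div, div_le_iff₀ hm]
    exact mul_le_mul_of_nonneg_left (le_max_left _ _) (by linarith)
  have hcle : ∀ y, ‖y‖ ≤ R → cl y = y := fun y hy => by
    rw [hcl]; simp only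
    rw [max_eq_right (by linarith), div_self (by linarith), one_smul]
  have hA : Continuous fun p => ⟪V (Z p), bary t μ (Z p)⟫ := (hVc.comp hZc).inner ((continuous_bary hS).comp hZc)
  have i4 : Integrable (fun p => ⟪V (Z p), bary t μ (Z p)⟫) P :=
    Integrable.of_bound hA.aestronglyMeasurable (B' * R) (Eventually.of_forall fun p =>
      (abs_real_inner_le_norm _ _).trans (mul_le_mul (hB' _) (norm_bary_le hS _) (norm_nonneg _) hB'0))
  have eX : ∫ p, ⟪V (Z p), p.1⟫ ∂P = ∫ p, ⟪V (Z p), bary t μ (Z p)⟫ ∂P := by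
    have h1 := elaw_fib hS (√t) (H := fun z y => ⟪V z, cl y⟫) (B := B' * (R + 1))
      ((hVc.comp continuous_fst).inner (hclc.comp continuous_snd)) fun z y =>
        (abs_real_inner_le_norm _ _).trans (mul_le_mul (hB' _) (hclb y) (norm_nonneg _) hB'0)
    rw [Real.sq_sqrt ht0.le] at h1
    rw [integral_prod _ i2, integral_prod _ i4]
    refine Eq.trans ?_ (h1.trans ?_)
    · refine integral_congr_ae (hS.mono fun x hx1 => ?_)
      simp [hZ, hcle x hx1]
    · refine integral_congr_ae (Eventually.of_forall fun x => integral_congr_ae (Eventually.of_forall fun G => ?_))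
      simp only [hZ, av]
      have := isProb_fib (T := t) hS (pt (√t) x G)
      rw [bary, ← integral_inner (f := fun y : Euc n => y) ((supp_fib hS _).integrable continuous_id)]
      exact integral_congr_ae ((supp_fib hS _).mono fun y hy => by simp [hcle y hy])
  exact ⟨eX, eG⟩

/-- Time derivative of an expectation along the localisation path. -/
lemma hasDerivAt_elaw (hS : Supp μ R) (hR : 0 ≤ R) (hs : 0 < s) {F Ft : ℝ → Euc n → ℝ} {F' : ℝ → Euc n → Euc n}
    {D : Fin n → ℝ → Euc n → ℝ} (h : C12 s T F Ft F' D) {t : ℝ} (ht : t ∈ Ioo s T) :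
    HasDerivAt (fun r => elaw r μ (F r))
      (elaw t μ (fun θ => Ft t θ + ⟪F' t θ, bary t μ θ⟫ + (1 / 2) * ∑ i, D i t θ)) t := by
  have ht0 : 0 < t := hs.trans ht.1
  have htI : t ∈ Icc s T := Ioo_subset_Icc_self ht
  obtain ⟨-, B, -, hB⟩ := h.cb
  obtain ⟨-, Bt, -, hBt⟩ := h.cbt
  obtain ⟨-, B', hB'0, hB'⟩ := h.cb'
  set P := μ.prod (gam n) with hP
  have hp : ∀ r : ℝ, Continuous fun p : Euc n × Euc n => pt (√r) p.1 p.2 := fun r => by unfold pt; fun_prop
  have hF : ∀ r ∈ Icc s T, Continuous fun p : Euc n × Euc n => F r (pt (√r) p.1 p.2) :=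
    fun r hr => (h.cb.cont hr).comp (hp r)
  have hF'c : Continuous fun p : Euc n × Euc n => F' t (pt (√t) p.1 p.2) := (h.cb'.cont htI).comp (hp t)
  have hFtc : Continuous fun p : Euc n × Euc n => Ft t (pt (√t) p.1 p.2) := (h.cbt.cont htI).comp (hp t)
  have hint : ∀ r ∈ Icc s T, Integrable (fun p : Euc n × Euc n => F r (pt (√r) p.1 p.2)) P := fun r hr =>
    Integrable.of_bound (hF r hr).aestronglyMeasurable B (Eventually.of_forall fun p => hB r hr _)
  have hbound : Integrable (fun p : Euc n × Euc n => Bt + B' * (R + 1 / (2 * √s) * ‖p.2‖)) P :=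
    integrable_path (H := fun _ G => Bt + B' * (R + 1 / (2 * √s) * ‖G‖)) hS (by fun_prop)
      (a := |Bt| + B' * R) (b := B' * (1 / (2 * √s))) fun x G _ => by
        refine (abs_add_le _ _).trans (le_of_eq ?_)
        rw [abs_of_nonneg (mul_nonneg hB'0 (by positivity))]
        ring
  have hx : ∀ᵐ p ∂P, ‖p.1‖ ≤ R := Measure.quasiMeasurePreserving_fst.ae hS
  have hmain := (hasDerivAt_integral_of_dominated_loc_of_deriv_le (μ := P) (x₀ := t) (s := Ioo s T)
    (F := fun r p => F r (pt (√r) p.1 p.2))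
    (F' := fun r p => Ft r (pt (√r) p.1 p.2) + ⟪F' r (pt (√r) p.1 p.2), p.1 + (1 / (2 * √r)) • p.2⟫)
    (isOpen_Ioo.mem_nhds ht)
    (by
      filter_upwards [isOpen_Ioo.mem_nhds ht] with r hr
      exact (hF r (Ioo_subset_Icc_self hr)).aestronglyMeasurable)
    (hint t htI) (hFtc.add (hF'c.inner (by fun_prop))).aestronglyMeasurable
    (by
      filter_upwards [hx] with p hp1 r hr
      have hr0 : 0 < r := hs.trans hr.1
      refine (norm_add_le _ _).trans (add_le_add (hBt r (Ioo_subset_Icc_self hr) _) ?_)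
      rw [norm_eq_abs]
      refine (abs_real_inner_le_norm _ _).trans (mul_le_mul (hB' r (Ioo_subset_Icc_self hr) _) ?_ (norm_nonneg _) hB'0)
      refine (norm_add_le _ _).trans (add_le_add hp1 ?_)
      rw [norm_smul, norm_eq_abs, abs_of_pos (by positivity)]
      gcongr
      exact hr.1.le)
    hbound (Eventually.of_forall fun p r hr => h.dt r hr _ _ (hasDerivAt_pt (hs.trans hr.1) p.1 p.2))).2
  have e : ∀ r ∈ Icc s T, elaw r μ (F r) = ∫ p, F r (pt (√r) p.1 p.2) ∂P := fun r hr => by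
    rw [elaw, integral_prod _ (hint r hr)]
  refine HasDerivAt.congr_of_eventuallyEq (hmain.congr_deriv ?_) (by
    filter_upwards [isOpen_Ioo.mem_nhds ht] with r hr
    exact e r (Ioo_subset_Icc_self hr))
  -- split the derivative
  set cf := 1 / (2 * √t) with hcf
  set Z := fun p : Euc n × Euc n => pt (√t) p.1 p.2 with hZ
  have hXc : Continuous fun p : Euc n × Euc n => ⟪F' t (Z p), p.1⟫ := hF'c.inner continuous_fst
  have hGc : Continuous fun p : Euc n × Euc n => ⟪F' t (Z p), p.2⟫ := hF'c.inner continuous_snd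
  have hBH : ∀ x G y : Euc n, |⟪F' t (Z (x, G)), y⟫| ≤ B' * ‖y‖ := fun x G y =>
    (abs_real_inner_le_norm _ _).trans (mul_le_mul_of_nonneg_right (hB' t htI _) (norm_nonneg _))
  have i1 : Integrable (fun p => Ft t (Z p)) P :=
    Integrable.of_bound hFtc.aestronglyMeasurable Bt (Eventually.of_forall fun p => hBt t htI _)
  have i2 : Integrable (fun p => ⟪F' t (Z p), p.1⟫) P :=
    integrable_path (H := fun x G => ⟪F' t (Z (x, G)), x⟫) hS hXc (a := B' * R) (b := 0) fun x G hx1 =>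
      (hBH x G x).trans (by nlinarith)
  have i3 : Integrable (fun p => ⟪F' t (Z p), p.2⟫) P :=
    integrable_path (H := fun x G => ⟪F' t (Z (x, G)), G⟫) hS hGc (a := 0) (b := B') fun x G _ =>
      (hBH x G G).trans (by linarith)
  have iD : ∀ i, Integrable (fun p => D i t (Z p)) P := fun i => by
    obtain ⟨-, BD, -, hBD⟩ := h.cbD i
    exact Integrable.of_bound (((h.cbD i).cont htI).comp (hp t)).aestronglyMeasurable BD
      (Eventually.of_forall fun p => hBD t htI _)
  obtain ⟨eX, eG⟩ : _ ∧ _ := path_ibp hS hR ht0 (V := F' t) (D := fun i => D i t) (h.cb'.cont htI) (hB' t htI)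
    (fun i => (h.cbD i).cont htI) (fun i => (h.cbD i).2.choose)
    (fun i => (h.cbD i).2.choose_spec.2 t htI) (fun z i => h.dxx t htI z i)
  have hA : Continuous fun p => ⟪F' t (Z p), bary t μ (Z p)⟫ := hF'c.inner ((continuous_bary hS).comp (hp t))
  have i4 : Integrable (fun p => ⟪F' t (Z p), bary t μ (Z p)⟫) P :=
    Integrable.of_bound hA.aestronglyMeasurable (B' * R) (Eventually.of_forall fun p =>
      (abs_real_inner_le_norm _ _).trans (mul_le_mul (hB' t htI _) (norm_bary_le hS _) (norm_nonneg _) hB'0))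
  have i5 : Integrable (fun p => (1 / 2 : ℝ) * ∑ i, D i t (Z p)) P :=
    (integrable_finsetSum _ fun i _ => iD i).const_mul _
  rw [elaw, ← integral_prod (fun p : Euc n × Euc n => Ft t (Z p) + ⟪F' t (Z p), bary t μ (Z p)⟫ + 1 / 2 * ∑ i, D i t (Z p))
    ((i1.add i4).add i5)]
  simp only [inner_add_right, real_inner_smul_right, ← add_assoc]
  show ∫ p, Ft t (Z p) + ⟪F' t (Z p), p.1⟫ + cf * ⟪F' t (Z p), p.2⟫ ∂P
    = ∫ p, Ft t (Z p) + ⟪F' t (Z p), bary t μ (Z p)⟫ + 1 / 2 * ∑ i, D i t (Z p) ∂P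
  rw [integral_add (f := fun p => Ft t (Z p) + ⟪F' t (Z p), p.1⟫) (i1.add i2) (i3.const_mul cf), integral_add i1 i2,
    integral_add (f := fun p => Ft t (Z p) + ⟪F' t (Z p), bary t μ (Z p)⟫) (i1.add i4) i5,
    integral_add i1 i4, integral_const_mul, integral_const_mul, eG, eX]
  have : cf * √t = 1 / 2 := by rw [hcf]; field_simp
  rw [← mul_assoc, this]

end

end Vale.Agent.P245N.Pig
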